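import Vale.Agent.P190.Bound.Colon

/-!
The colon family of a family only depends on it up to bounded codimension.
-/

open Submodule Module Filter MvPolynomial

namespace Vale.Agent.P190.Bound.Slopes

open Vale.Agent.P190 Hilb

variable {k K : Type} [Field k] [Field K] [Algebra k K] {η ζ : K}

/-- An element of the rational field is a quotient of relatively prime polynomials. -/
theorem exists_reduced (hind : AlgebraicIndependent k ![η, ζ]) {F : K}
    (hF : F ∈ ratField k η ζ) :
    ∃ P Q : MvPolynomial (Fin 2) k, IsRelPrime Q P ∧ Q ≠ 0 ∧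
      ev (k := k) η ζ Q * F = ev (k := k) η ζ P := by
  obtain ⟨n, q, hq, hq0, hqF⟩ := exists_denom (k := k) (η := η) (ζ := ζ) hF
  obtain ⟨q', -, rfl⟩ := mem_polySpace.mp hq
  obtain ⟨s, -, hs⟩ := mem_polySpace.mp hqF
  have hq' : q' ≠ 0 := by rintro rfl; simp at hq0
  obtain ⟨Q, P, c, hrel, hQ, hP⟩ := UniqueFactorizationMonoid.exists_reduced_factors q' hq' s
  have hc : c ≠ 0 := by rintro rfl; simp at hQ; exact hq' hQ.symm
  have hQ0 : Q ≠ 0 := by rintro rfl; simp at hQ; exact hq' hQ.symm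
  refine ⟨P, Q, hrel, hQ0, mul_left_cancel₀
    ((map_ne_zero_iff _ (ev_injective hind)).mpr hc) ?_⟩
  rw [← mul_assoc, ← map_mul, hQ, ← hs, ← map_mul, hP]

/-- A rational element which multiplies a family of forms of bounded codimension into forms is a
form. -/
theorem mem_polySpace_of_cofinite (hind : AlgebraicIndependent k ![η, ζ]) {F : K}
    (hF : F ∈ ratField k η ζ) (E : ℤ) (l t₀ : ℕ)
    (h : ∀ t : ℕ, t₀ ≤ t → ∃ I : Submodule k K, I ≤ polySpace (k := k) η ζ t ∧
      cpos t ≤ finrank k I + l ∧ ∀ a ∈ I, a * F ∈ polySpace (k := k) η ζ (E + t)) :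
    F ∈ polySpace (k := k) η ζ E := by
  obtain ⟨P, Q, hrel, hQ0, hQF⟩ := exists_reduced hind hF
  obtain ⟨t, ht₀, htl, htE⟩ : ∃ t : ℕ, t₀ ≤ t ∧ l < t ∧ 0 ≤ E + t :=
    ⟨t₀ + l + 1 + E.natAbs, by omega, by omega, by omega⟩
  obtain ⟨I, hI, hcard, hmul⟩ := h t ht₀
  obtain ⟨T, hT⟩ := Int.eq_ofNat_of_zero_le htE
  have hev := ev_injective (k := k) hind
  have hFD := fd_polySpace (k := k) (η := η) (ζ := ζ) ((t : ℤ) - 1)
  have hgap : cpos ((t : ℤ) - 1) + l < cpos t := by
    have := cpos_sub_pred (t : ℤ) (by omega); omega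
  have key : ∀ a ∈ I, ∃ A Z : MvPolynomial (Fin 2) k, A.totalDegree ≤ t ∧ Z.totalDegree ≤ T ∧
      a = ev (k := k) η ζ A ∧ a * F = ev (k := k) η ζ Z ∧ A * P = Q * Z := by
    intro a ha
    obtain ⟨A, hA, rfl⟩ := mem_polySpace.mp (hI ha)
    obtain ⟨Z, hZ, hZe⟩ := mem_polySpace.mp (hT ▸ hmul _ ha)
    refine ⟨A, Z, hA, hZ, rfl, hZe.symm, hev ?_⟩
    rw [map_mul, map_mul, ← hQF, hZe]
    ring
  have hQdeg : Q.totalDegree = 0 := by
    by_contra hne
    have hle : I ≤ (polySpace (k := k) η ζ ((t : ℤ) - 1)).map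
        (LinearMap.mulLeft k (ev (k := k) η ζ Q)) := by
      intro a ha
      obtain ⟨A, Z, hA, -, rfl, -, hAP⟩ := key a ha
      obtain ⟨A', rfl⟩ := hrel.dvd_of_dvd_mul_right ⟨Z, hAP⟩
      refine ⟨ev (k := k) η ζ A', ?_, by simp⟩
      rcases eq_or_ne A' 0 with rfl | hA'
      · simp
      rw [totalDegree_mul_of_isDomain hQ0 hA'] at hA
      rw [show ((t : ℤ) - 1) = ((t - 1 : ℕ) : ℤ) by omega]
      exact mem_polySpace.mpr ⟨A', by omega, rfl⟩
    have h1 := Submodule.finrank_mono hle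
    have h2 := Submodule.finrank_map_le (LinearMap.mulLeft k (ev (k := k) η ζ Q))
      (polySpace (k := k) η ζ ((t : ℤ) - 1))
    rw [finrank_polySpace hind] at h2
    omega
  obtain ⟨c, rfl⟩ : ∃ c : k, Q = C c := ⟨coeff 0 Q, totalDegree_eq_zero_iff_eq_C.mp hQdeg⟩
  have hc : c ≠ 0 := fun h0 => hQ0 (by rw [h0, map_zero])
  have hFP : F = ev (k := k) η ζ (C c⁻¹ * P) := by
    rw [map_mul, ← hQF, ← mul_assoc, ← map_mul, ← map_mul, inv_mul_cancel₀ hc, map_one, map_one,
      one_mul]
  set P' := C c⁻¹ * P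
  subst hFP
  rcases eq_or_ne P' 0 with h0 | h0
  · simp [h0]
  by_contra hnot
  have hbad : E < (P'.totalDegree : ℤ) := by
    by_contra hle
    push Not at hle
    obtain ⟨E', rfl⟩ := Int.eq_ofNat_of_zero_le (le_trans (Int.natCast_nonneg _) hle)
    exact hnot (mem_polySpace.mpr ⟨P', by omega, rfl⟩)
  have hle : I ≤ polySpace (k := k) η ζ ((t : ℤ) - 1) := by
    intro a ha
    obtain ⟨A, Z, -, hZ, rfl, hAF, -⟩ := key a ha
    rw [← map_mul] at hAF
    have hZ' := hev hAF
    rcases eq_or_ne A 0 with rfl | hA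
    · simp
    rw [← hZ', totalDegree_mul_of_isDomain hA h0] at hZ
    rw [show ((t : ℤ) - 1) = ((t - 1 : ℕ) : ℤ) by omega]
    exact mem_polySpace.mpr ⟨A, by omega, rfl⟩
  have h1 := Submodule.finrank_mono hle
  rw [finrank_polySpace hind] at h1
  omega

variable {C : Cone k K} {r : ℕ} {L L' : ℤ → Submodule k (Fin r → K)}

/-- The colon family only depends on a family up to bounded codimension. -/
theorem colon_eq_of_cofinite
    (hR : ∀ n, dualFam C.η C.ζ (dualFam C.η C.ζ (one1 C.R)) n = one1 C.R n)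
    (hL' : Stable C L') (hfd : ∀ n, FiniteDimensional k (L' n)) (hle : ∀ n, L n ≤ L' n)
    {l : ℕ} (hl : ∀ᶠ n : ℤ in atTop, finrank k (L' n) ≤ finrank k (L n) + l) (n : ℤ) :
    colon C L n = colon C L' n := by
  refine le_antisymm (fun u hu j v hv => ?_) (colon_anti hle n)
  obtain ⟨n₀, hn₀⟩ := eventually_atTop.1 hl
  have hone : (fun _ : Fin 1 => ∑ i, u i * v i) ∈ one1 C.R (n + j) := by
    rw [← hR, mem_dualFam]
    intro m c hc
    rw [pair_apply]
    set f := ∑ i, u i * v i with hf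
    refine mem_polySpace_of_cofinite C.indep (Subtype.mem _) _ l (n₀ - j).toNat fun t ht => ?_
    have := hfd (j + t)
    have := fd_polySpace (k := k) (η := C.η) (ζ := C.ζ) (t : ℤ)
    let Φ : polySpace (k := k) C.η C.ζ t →ₗ[k] (L' (j + t) ⧸ (L (j + t)).comap (L' (j + t)).subtype) :=
      (Submodule.mkQ _).comp
        ((((LinearMap.id : K →ₗ[k] K).smulRight v).comp
          (polySpace (k := k) C.η C.ζ t).subtype).codRestrict _ fun a => hL'.closed.poly_smul a.2 hv)
    refine ⟨(LinearMap.ker Φ).map (polySpace (k := k) C.η C.ζ t).subtype, map_subtype_le _ _, ?_, ?_⟩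
    · rw [finrank_map_subtype_eq, ← finrank_polySpace C.indep, ← Φ.finrank_range_add_finrank_ker,
        add_comm]
      refine Nat.add_le_add_left ((Submodule.finrank_le _).trans ?_) _
      have h1 := Submodule.finrank_quotient_add_finrank ((L (j + t)).comap (L' (j + t)).subtype)
      rw [(comapSubtypeEquivOfLe (hle _)).finrank_eq] at h1
      have := hn₀ (j + t) (by omega)
      omega
    · rintro _ ⟨a, ha, rfl⟩
      have hmem : (a : K) • v ∈ L (j + t) := by
        have h0 := LinearMap.mem_ker.mp ha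
        exact (Submodule.Quotient.mk_eq_zero
          ((L (j + t)).comap (L' (j + t)).subtype)).mp h0
      have h1 := hu (j + t) _ hmem
      have e : (∑ i, u i * ((a : K) • v) i) = (a : K) * f := by
        rw [hf, Finset.mul_sum]
        exact Finset.sum_congr rfl fun i _ => by simp only [Pi.smul_apply, smul_eq_mul]; ring
      rw [e] at h1
      have h2 := mem_dualFam.mp hc (n + (j + t)) (fun _ : Fin 1 => (a : K) * f) h1
      rw [pair_apply] at h2
      have ha' : (a : K) ∈ ratField k C.η C.ζ := polySpace_le_ratField _ a.2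
      have e2 : ∑ i : Fin 1, c i * ((a : K) * f)
          = (⟨(a : K), ha'⟩ : ratField k C.η C.ζ) • ∑ i : Fin 1, (fun _ : Fin 1 => f) i * c i := by
        rw [IntermediateField.smul_def, smul_eq_mul]
        simp only [Finset.univ_unique, Finset.sum_singleton]
        ring
      rw [e2, map_smul] at h2
      convert h2 using 2
      · ring
      · rw [smul_eq_mul]; rfl
  simpa [one1] using hone

end Vale.Agent.P190.Bound.Slopes
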