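import Vale.Agent.P190.Bound.Slopes.Linear

/-!
Enlarging a subspace by a derivation lowers the slopes of its quotients by at most the degree of the
multiplier.
-/

open Submodule Module Filter

namespace Vale.Agent.P190.Bound.Slopes

open Vale.Agent.P190 Hilb

variable {k K : Type} [Field k] [Field K] [Algebra k K] {C : Cone k K} {r : ℕ} {a : ℤ}
  {L : ℤ → Submodule k (Fin r → K)} (D : Derivation k K K)

/-- A derivation coordinatewise. -/
noncomputable def dvec : (Fin r → K) →ₗ[k] (Fin r → K) where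
  toFun v i := D (v i)
  map_add' v w := by funext i; simp
  map_smul' c v := by funext i; simp

theorem dvec_smul (c : K) (v : Fin r → K) : dvec D (c • v) = c • dvec D v + D c • v := by
  funext i
  simp [dvec, mul_comm]

/-- The family is preserved by the multiple of the derivation, raising degrees by `e`. -/
def Preserves (c : K) (e : ℕ) (L : ℤ → Submodule k (Fin r → K)) : Prop :=
  ∀ n, ∀ u ∈ L n, c • dvec D u ∈ L (n + e)

theorem preserves_colon {c : K} {e : ℕ} (hc : ∀ n, ∀ b ∈ C.R n, c * D b ∈ C.R (n + e))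
    (hL : Preserves D c e L) : Preserves D c e (colon C L) := by
  intro n u hu j v hv
  have h1 := hc _ _ (hu j v hv)
  have h2 := hu (j + e) _ (hL j v hv)
  rw [show n + (j + (e : ℤ)) = n + e + j by ring] at h2
  rw [show n + j + (e : ℤ) = n + e + j by ring] at h1
  have := sub_mem h1 h2
  convert this using 1
  rw [map_sum, Finset.mul_sum, ← Finset.sum_sub_distrib]
  refine Finset.sum_congr rfl fun i _ => ?_
  simp [dvec]
  ring

/-- Every proper quotient of the part in `U` has slope above `t`. -/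
def Steep (C : Cone k K) (a : ℤ) (L : ℤ → Submodule k (Fin r → K)) (t : ℚ)
    (U : Submodule K (Fin r → K)) : Prop :=
  ∀ W : Submodule K (Fin r → K), W < U →
    t * ((C.d : ℚ) * ((finrank K U : ℚ) - finrank K W)) < bet C a L U - bet C a L W

theorem bet_sup_inf (hL : Fam C.η C.ζ L) (U W : Submodule K (Fin r → K)) :
    bet C a L U + bet C a L W
      ≤ bet C a L (U ⊔ W) + bet C a L (U ⊓ W) := by
  obtain ⟨γ₁, h₁⟩ := quad_part (a := a) hL U
  obtain ⟨γ₂, h₂⟩ := quad_part (a := a) hL W
  obtain ⟨γ₃, h₃⟩ := quad_part (a := a) hL (U ⊔ W)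
  obtain ⟨γ₄, h₄⟩ := quad_part (a := a) hL (U ⊓ W)
  have hrk : (finrank K (U ⊔ W : Submodule K (Fin r → K)) : ℚ)
      + finrank K (U ⊓ W : Submodule K (Fin r → K)) = finrank K U + finrank K W := by
    exact_mod_cast Submodule.finrank_sup_add_finrank_inf_eq U W
  have hlead : lead C U + lead C W = lead C (U ⊔ W) + lead C (U ⊓ W) := by
    simp only [lead, Nat.cast_mul]
    linear_combination (-(C.d : ℚ) / 2) * hrk
  refine affine_le (a := a) (B := γ₁ + γ₂) (B' := γ₃ + γ₄)
    ((((h₁.and h₂).and h₃).and h₄).mono fun n hn => ?_)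
  obtain ⟨⟨⟨e₁, e₂⟩, e₃⟩, e₄⟩ := hn
  have := fd_part hL.fd U n
  have := fd_part hL.fd W n
  have := fd_part hL.fd (U ⊔ W) n
  have key := Submodule.finrank_sup_add_finrank_inf_eq (Cone.part L U n) (Cone.part L W n)
  have hs : Cone.part L U n ⊔ Cone.part L W n ≤ Cone.part L (U ⊔ W) n :=
    sup_le (fun v hv => ⟨hv.1, mem_sup_left (S := U) (T := W) hv.2⟩)
      (fun v hv => ⟨hv.1, mem_sup_right (S := U) (T := W) hv.2⟩)
  have hi : Cone.part L U n ⊓ Cone.part L W n = Cone.part L (U ⊓ W) n := by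
    ext v
    simp [Cone.part, Submodule.mem_inf]
    tauto
  rw [hi] at key
  have := Submodule.finrank_mono hs
  have : (finrank k (Cone.part L U n) : ℚ) + finrank k (Cone.part L W n)
      ≤ finrank k (Cone.part L (U ⊔ W) n) + finrank k (Cone.part L (U ⊓ W) n) := by
    exact_mod_cast (by omega)
  rw [e₁, e₂, e₃, e₄] at this
  linear_combination this - ((n : ℚ) - (a : ℚ) / 2) ^ 2 * hlead

/-- The subspace and its derivatives. -/
noncomputable def enlarge (U : Submodule K (Fin r → K)) : Submodule K (Fin r → K) :=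
  U ⊔ span K (dvec D '' (U : Set (Fin r → K)))

theorem le_enlarge (U : Submodule K (Fin r → K)) : U ≤ enlarge D U := le_sup_left

theorem dvec_mem_enlarge {U : Submodule K (Fin r → K)} {u : Fin r → K} (hu : u ∈ U) :
    dvec D u ∈ enlarge D U :=
  mem_sup_right (subset_span ⟨u, hu, rfl⟩)

/-- The derivative modulo a subspace containing `U`. -/
noncomputable def dmod (U X : Submodule K (Fin r → K)) (h : U ≤ X) :
    U →ₗ[K] ((Fin r → K) ⧸ X) where
  toFun u := X.mkQ (dvec D u)
  map_add' u v := by simp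
  map_smul' c u := by
    rw [Submodule.coe_smul, dvec_smul, map_add, map_smul, RingHom.id_apply,
      mkQ_apply X (D c • (u : Fin r → K)),
      (Submodule.Quotient.mk_eq_zero X).mpr (X.smul_mem (D c) (h u.2)), add_zero]

theorem range_dmod (U X : Submodule K (Fin r → K)) (h : U ≤ X) :
    LinearMap.range (dmod D U X h) = (enlarge D U).map X.mkQ := by
  apply le_antisymm
  · rintro _ ⟨u, rfl⟩
    exact Submodule.mem_map_of_mem (dvec_mem_enlarge D u.2)
  · rw [enlarge, Submodule.map_sup, Submodule.map_span, sup_le_iff, span_le]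
    refine ⟨?_, ?_⟩
    · rintro _ ⟨u, hu, rfl⟩
      rw [show X.mkQ u = 0 from (Submodule.Quotient.mk_eq_zero X).mpr (h hu)]
      exact zero_mem _
    · rintro _ ⟨_, ⟨u, hu, rfl⟩, rfl⟩
      exact ⟨⟨u, hu⟩, rfl⟩

theorem steep_enlarge (hL : Fam C.η C.ζ L) {c : K} (hc : c ≠ 0) {e : ℕ}
    (hP : Preserves D c e L) {t : ℚ} {U : Submodule K (Fin r → K)} (hU : Steep C a L t U) :
    Steep C a L (t - e) (enlarge D U) := by
  intro W hW
  have hd : (0 : ℚ) < C.d := by exact_mod_cast C.d_pos
  set X := U ⊔ W with hX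
  have hXle : X ≤ enlarge D U := sup_le (le_enlarge D U) hW.le
  set W₀ : Submodule K (Fin r → K) := (LinearMap.ker (dmod D U X le_sup_left)).map U.subtype
    with hW₀
  have hW₀U : W₀ ≤ U := map_subtype_le _ _
  have memW₀ : ∀ u, u ∈ W₀ ↔ u ∈ U ∧ dvec D u ∈ X := by
    intro u
    simp [hW₀, dmod, Submodule.mem_map, Submodule.Quotient.mk_eq_zero, and_comm]
  have hdim : (finrank K U : ℚ) - finrank K W₀ = finrank K (enlarge D U) - finrank K X := by
    have h1 := LinearMap.finrank_range_add_finrank_ker (dmod D U X le_sup_left)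
    rw [range_dmod] at h1
    have h2 := finrank_map_add_ker X.mkQ (enlarge D U)
    rw [ker_mkQ, inf_eq_left.mpr hXle] at h2
    rw [hW₀, finrank_map_subtype_eq]
    have h3 : finrank K U + finrank K X = finrank K (LinearMap.ker (dmod D U X le_sup_left))
        + finrank K (enlarge D U) := by omega
    have h3' : (finrank K U : ℚ) + finrank K X = finrank K (LinearMap.ker (dmod D U X le_sup_left))
        + finrank K (enlarge D U) := by exact_mod_cast h3
    linarith
  obtain ⟨γ₁, h₁⟩ := quad_part (a := a) hL U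
  obtain ⟨γ₂, h₂⟩ := quad_part (a := a) hL W₀
  obtain ⟨γ₃, h₃⟩ := quad_part (a := a) hL (enlarge D U)
  obtain ⟨γ₄, h₄⟩ := quad_part (a := a) hL X
  set δ : ℚ := (C.d : ℚ) * ((finrank K U : ℚ) - finrank K W₀) with hδ
  have hlead : lead C U - lead C W₀ = δ / 2 := by simp [lead, hδ]; ring
  have hlead' : lead C (enlarge D U) - lead C X = δ / 2 := by simp [lead, hδ, hdim]; ring
  have first : bet C a L U - bet C a L W₀ - δ * e ≤ bet C a L (enlarge D U) - bet C a L X := by
    have hev := tendsto_atTop_add_const_right atTop (e : ℤ) (tendsto_id (α := ℤ))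
    have h₃' := hev.eventually h₃
    have h₄' := hev.eventually h₄
    refine affine_le (a := a) (B := γ₁ - γ₂ - δ / 2 * (e : ℚ) ^ 2 - (bet C a L (enlarge D U) - bet C a L X) * e)
      (B' := γ₃ - γ₄) ((((h₁.and h₂).and h₃').and h₄').mono fun n hn => ?_)
    obtain ⟨⟨⟨e₁, e₂⟩, e₃⟩, e₄⟩ := hn
    simp only [id] at e₃ e₄
    push_cast at e₃ e₄
    have := fd_part hL.fd U n
    have := fd_part hL.fd (enlarge D U) (n + e)
    let ψ : (Fin r → K) →ₗ[k] ((Fin r → K) ⧸ Cone.part L X (n + e)) :=
      (Cone.part L X (n + e)).mkQ.comp ((DistribSMul.toLinearMap k (Fin r → K) c).comp (dvec D))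
    have a1 := finrank_map_add_ker ψ (Cone.part L U n)
    have hker : (LinearMap.ker ψ ⊓ Cone.part L U n : Submodule k (Fin r → K)) ≤ Cone.part L W₀ n := by
      intro v hv
      obtain ⟨hv1, hvL, hvU⟩ := hv
      have h0 : c • dvec D v ∈ Cone.part L X (n + e) :=
        (Submodule.Quotient.mk_eq_zero _).mp (LinearMap.mem_ker.mp hv1)
      refine ⟨hvL, (memW₀ v).mpr ⟨hvU, ?_⟩⟩
      have := X.smul_mem c⁻¹ h0.2
      rwa [smul_smul, inv_mul_cancel₀ hc, one_smul] at this
    have hmap : (Cone.part L U n).map ψ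
        ≤ (Cone.part L (enlarge D U) (n + e)).map (Cone.part L X (n + e)).mkQ := by
      rintro _ ⟨v, ⟨hvL, hvU⟩, rfl⟩
      exact Submodule.mem_map_of_mem
        ⟨hP n v hvL, (enlarge D U).smul_mem c (dvec_mem_enlarge D hvU)⟩
    have a2 := finrank_map_add_ker (Cone.part L X (n + e)).mkQ (Cone.part L (enlarge D U) (n + e))
    rw [ker_mkQ, inf_eq_left.mpr (fun v hv => ⟨hv.1, hXle hv.2⟩ :
      Cone.part L X (n + e) ≤ Cone.part L (enlarge D U) (n + e))] at a2
    have := fd_part hL.fd W₀ n
    have a3 := Submodule.finrank_mono hker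
    have a4 := Submodule.finrank_mono hmap
    have key : (finrank k (Cone.part L U n) : ℚ) + finrank k (Cone.part L X (n + e))
        ≤ finrank k (Cone.part L W₀ n) + finrank k (Cone.part L (enlarge D U) (n + e)) := by
      exact_mod_cast (by omega)
    rw [e₁, e₂, e₃, e₄] at key
    linear_combination key - ((n : ℚ) - (a : ℚ) / 2) ^ 2 * hlead
      + (((n : ℚ) + e) - (a : ℚ) / 2) ^ 2 * hlead'
  have second := bet_sup_inf (a := a) hL U W
  have hrk : (finrank K X : ℚ) + finrank K (U ⊓ W : Submodule K (Fin r → K))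
      = finrank K U + finrank K W := by
    exact_mod_cast Submodule.finrank_sup_add_finrank_inf_eq U W
  have hδ0 : 0 ≤ δ := by
    have : (finrank K W₀ : ℚ) ≤ finrank K U := by exact_mod_cast Submodule.finrank_mono hW₀U
    exact mul_nonneg hd.le (by linarith)
  set σ : ℚ := (C.d : ℚ) * ((finrank K U : ℚ) - finrank K (U ⊓ W : Submodule K (Fin r → K)))
    with hσ
  have hσ0 : 0 ≤ σ := by
    have : (finrank K (U ⊓ W : Submodule K (Fin r → K)) : ℚ) ≤ finrank K U := by
      exact_mod_cast Submodule.finrank_mono inf_le_left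
    exact mul_nonneg hd.le (by linarith)
  have hgoal : (C.d : ℚ) * ((finrank K (enlarge D U) : ℚ) - finrank K W) = δ + σ := by
    rw [hδ, hσ]
    linear_combination (-(C.d : ℚ)) * hdim + (C.d : ℚ) * hrk
  rw [hgoal]
  have he : (0 : ℚ) ≤ e := Nat.cast_nonneg _
  have p1 : t * δ ≤ bet C a L U - bet C a L W₀ := by
    rcases hW₀U.lt_or_eq with h | h
    · exact (hU W₀ h).le
    · rw [hδ, h, sub_self, sub_self, mul_zero, mul_zero]
  have p2 : t * σ ≤ bet C a L X - bet C a L W := by
    rcases (inf_le_left : U ⊓ W ≤ U).lt_or_eq with h | h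
    · linarith [hU _ h]
    · rw [hσ, h]
      rw [h] at second
      simp only [sub_self, mul_zero, ← hX] at second ⊢
      linarith
  by_cases hUW : U ≤ W
  · have hlt : W₀ < U := by
      refine lt_of_le_of_ne hW₀U fun h => ?_
      have hsub : enlarge D U ≤ X := by
        refine sup_le le_sup_left (span_le.mpr ?_)
        rintro _ ⟨u, hu, rfl⟩
        exact ((memW₀ u).mp (h.symm ▸ hu)).2
      rw [hX, sup_eq_right.mpr hUW] at hsub
      exact absurd (le_antisymm hsub hW.le) hW.ne'
    have s1 := hU W₀ hlt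
    nlinarith [mul_nonneg hσ0 he]
  · have s2 := hU (U ⊓ W) (lt_of_le_of_ne inf_le_left fun h => hUW (inf_eq_left.mp h))
    simp only [← hX] at second
    nlinarith [mul_nonneg hσ0 he]

end Vale.Agent.P190.Bound.Slopes
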