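import Vale.Agent.P190.Bound.Slopes.Linear

/-!
Colons of images under transposed maps, and the slope of a part of the colon of a module.
-/

open Submodule Module Filter

namespace Vale.Agent.P190.Bound.Slopes

open Vale.Agent.P190 Hilb

variable {k K : Type} [Field k] [Field K] [Algebra k K] {C : Cone k K} {r m : ℕ} {a : ℤ} {w : K}
  {L : ℤ → Submodule k (Fin r → K)}

/-- The transpose of a map of coordinate spaces. -/
noncomputable def tmap (φ : (Fin m → K) →ₗ[K] (Fin r → K)) : (Fin r → K) →ₗ[K] (Fin m → K) where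
  toFun h i := ∑ l, h l * φ (Pi.single i 1) l
  map_add' h h' := by funext i; simp [add_mul, Finset.sum_add_distrib]
  map_smul' c h := by funext i; simp [Finset.mul_sum, mul_assoc]

theorem sum_tmap (φ : (Fin m → K) →ₗ[K] (Fin r → K)) (h : Fin r → K) (u : Fin m → K) :
    ∑ i, tmap φ h i * u i = ∑ l, h l * φ u l := by
  have hu : φ u = ∑ i, u i • φ (Pi.single i 1) := by
    simp_rw [← map_smul, ← map_sum]
    congr 1
    funext j
    simp [Finset.sum_apply, Pi.single_apply]
  rw [hu]
  simp only [tmap, LinearMap.coe_mk, AddHom.coe_mk, Finset.sum_apply, Pi.smul_apply, smul_eq_mul,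
    Finset.sum_mul, Finset.mul_sum]
  rw [Finset.sum_comm]
  exact Finset.sum_congr rfl fun i _ => Finset.sum_congr rfl fun j _ => by ring

theorem tmap_surjective (φ : (Fin m → K) →ₗ[K] (Fin r → K)) (hφ : Function.Injective φ) :
    Function.Surjective (tmap φ) := by
  obtain ⟨ψ, hψ⟩ := φ.exists_leftInverse_of_injective (LinearMap.ker_eq_bot.mpr hφ)
  intro v
  refine ⟨tmap ψ v, ?_⟩
  funext i
  have := sum_tmap φ (tmap ψ v) (Pi.single i 1)
  rw [show (∑ j, tmap φ (tmap ψ v) j * (Pi.single i (1 : K) : Fin m → K) j)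
      = tmap φ (tmap ψ v) i by simp [Pi.single_apply], sum_tmap ψ v] at this
  rw [this, show ψ (φ (Pi.single i 1)) = Pi.single i 1 from LinearMap.congr_fun hψ _]
  simp [Pi.single_apply]

theorem finrank_ker_tmap (φ : (Fin m → K) →ₗ[K] (Fin r → K)) (hφ : Function.Injective φ) :
    m + finrank K (LinearMap.ker (tmap φ)) = r := by
  have h := LinearMap.finrank_range_add_finrank_ker (tmap φ)
  rwa [LinearMap.range_eq_top.mpr (tmap_surjective φ hφ), finrank_top, finrank_fin_fun,
    finrank_fin_fun] at h

/-- The colon of the image under a transpose is the colon in coordinates. -/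
theorem colon_map_tmap (φ : (Fin m → K) →ₗ[K] (Fin r → K)) (n : ℤ) :
    colon C (fun j => (L j).map ((tmap φ).restrictScalars k)) n = coordPart φ (colon C L) n := by
  ext u
  constructor
  · intro hu j v hv
    have := hu j _ (Submodule.mem_map_of_mem hv)
    show ∑ i, φ u i * v i ∈ C.R (n + j)
    rw [show ∑ i, φ u i * v i = ∑ l, v l * φ u l from
      Finset.sum_congr rfl fun i _ => mul_comm _ _, ← sum_tmap]
    convert this using 1
    exact Finset.sum_congr rfl fun i _ => mul_comm _ _
  · rintro hu j _ ⟨v, hv, rfl⟩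
    have := hu j v hv
    rw [show ∑ i, u i * (tmap φ).restrictScalars k v i = ∑ i, tmap φ v i * u i from
      Finset.sum_congr rfl fun i _ => mul_comm _ _, sum_tmap]
    convert this using 1
    exact Finset.sum_congr rfl fun i _ => mul_comm _ _

theorem stable_map (ψ : (Fin r → K) →ₗ[K] (Fin m → K)) (hL : Stable C L) :
    Stable C fun j => (L j).map (ψ.restrictScalars k) := by
  rintro i j c hc _ ⟨v, hv, rfl⟩
  exact ⟨c • v, hL i j c hc v hv, map_smul ψ c v⟩

theorem stable_coordPart (φ : (Fin m → K) →ₗ[K] (Fin r → K)) (hL : Stable C L) :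
    Stable C (coordPart φ L) := fun i j c hc u hu => by
  show φ (c • u) ∈ L (i + j)
  rw [map_smul]
  exact hL i j c hc _ hu

/-- The image under a map has the complementary linear coefficient. -/
theorem quad_map (hL : Fam C.η C.ζ L) (ψ : (Fin r → K) →ₗ[K] (Fin m → K))
    (hψ : Function.Surjective ψ) {β γ : ℚ} (hq : Quad a L (((C.d * r : ℕ) : ℚ) / 2) β γ) :
    ∃ γ', Quad a (fun j => (L j).map (ψ.restrictScalars k)) (((C.d * m : ℕ) : ℚ) / 2)
      (β - bet C a L (LinearMap.ker ψ)) γ' := by
  obtain ⟨γ₁, h₁⟩ := quad_part (a := a) hL (LinearMap.ker ψ)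
  have hr := LinearMap.finrank_range_add_finrank_ker ψ
  rw [LinearMap.range_eq_top.mpr hψ, finrank_top, finrank_fin_fun, finrank_fin_fun] at hr
  have hr' : (m : ℚ) + finrank K (LinearMap.ker ψ) = r := by exact_mod_cast hr
  refine ⟨γ - γ₁, (hq.and h₁).mono fun n hn => ?_⟩
  obtain ⟨e₁, e₂⟩ := hn
  have := hL.fd n
  have h := finrank_map_add_ker (ψ.restrictScalars k) (L n)
  rw [LinearMap.ker_restrictScalars, inf_comm] at h
  have h' : (finrank k ((L n).map (ψ.restrictScalars k)) : ℚ)
      + finrank k (Cone.part L (LinearMap.ker ψ) n) = finrank k (L n) := by exact_mod_cast h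
  rw [e₁, e₂] at h'
  simp only [lead, Nat.cast_mul] at h' ⊢
  linear_combination h' - (C.d : ℚ) / 2 * ((n : ℚ) - (a : ℚ) / 2) ^ 2 * hr'

/-- A part of the colon has at most minus the linear coefficient of the quotient of the module. -/
theorem bet_colon_le (hω : OmegaData C a w) (hs : Stable C L) (hL : Fam C.η C.ζ L) {β γ : ℚ}
    (hq : Quad a L (((C.d * r : ℕ) : ℚ) / 2) β γ) (ψ : (Fin m → K) →ₗ[K] (Fin r → K))
    (hψ : Function.Injective ψ) :
    bet C a (colon C L) (LinearMap.range ψ) ≤ -(β - bet C a L (LinearMap.ker (tmap ψ))) := by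
  have := finiteDimensional_ratField C
  have := C.sep
  set Q := fun j => (L j).map ((tmap ψ).restrictScalars k) with hQ
  obtain ⟨γ', hQq⟩ := quad_map hL (tmap ψ) (tmap_surjective ψ hψ) hq
  have e : colon C Q = coordPart ψ (colon C L) := funext (colon_map_tmap ψ)
  have hF : Fam C.η C.ζ (colon C Q) := by
    rw [e]; exact coordPart_fam C.indep ψ hψ (fam_colon hω hs hL)
  obtain ⟨β', γ'', h', h''⟩ :=
    quad_colon hω stable_colon hF fun n => colon_colon_colon n
  have hrange : finrank K (LinearMap.range ψ) = m := by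
    rw [LinearMap.finrank_range_of_inj hψ, finrank_fin_fun]
  have hb : bet C a (colon C L) (LinearMap.range ψ) = β' := bet_eq (γ := γ'') (by
    rw [lead, hrange]
    exact quad_congr (fun n => by rw [e, finrank_coordPart ψ hψ]) h')
  rw [hb, le_neg]
  have hfd : ∀ n, FiniteDimensional k (colon C (colon C Q) n) :=
    (fam_colon hω stable_colon hF).fd
  exact beta_le 0 hQq h'' (Eventually.of_forall fun n => by
    have := hfd n
    exact Submodule.finrank_mono (le_colon_colon (C := C) (N := Q) n))

end Vale.Agent.P190.Bound.Slopes
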