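import Vale.Agent.P190.Bound.HullQuad
import Vale.Agent.P190.Bound.Slopes.Cofinite
import Vale.Agent.P190.Bound.Slopes.Step
import Vale.Agent.P190.Bound.Slopes.Transpose

/-!
The part of a Frobenius hull in a descended subspace has at most `p` times the linear coefficient of
the part of the module.
-/

open Submodule Module Filter

namespace Vale.Agent.P190.Bound.Slopes

open Vale.Agent.P190 Hilb

variable {k K : Type} [Field k] [Field K] [Algebra k K] {C : Cone k K} {r m : ℕ} {a : ℤ} {w : K}
  {N : ℤ → Submodule k (Fin r → K)} {p : ℕ}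

theorem dvec_frobVec (D : Derivation k K K) (p : ℕ) [CharP K p] (v : Fin r → K) :
    dvec D (Colength.frobVec p v) = 0 := by
  funext i
  simp [dvec, Colength.frobVec, Derivation.leibniz_pow]

theorem preserves_frobFam (D : Derivation k K K) [CharP K p] {c : K} {e : ℕ}
    (hc : ∀ n, ∀ b ∈ C.R n, c * D b ∈ C.R (n + e)) :
    Preserves D c e (Colength.frobFam C p N) := by
  intro n u hu
  induction hu using Submodule.span_induction with
  | mem x hx =>
    obtain ⟨j, b, hb, v, hv, rfl⟩ := hx
    rw [dvec_smul, dvec_frobVec, smul_zero, zero_add, smul_smul]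
    refine Colength.mem_frobFam ?_ hv
    have := hc _ b hb
    rwa [show n - (p : ℤ) * j + (e : ℤ) = n + e - p * j by ring] at this
  | zero => simp
  | add x y _ _ hx hy => rw [map_add, smul_add]; exact add_mem hx hy
  | smul t x _ hx =>
    rw [map_smul, smul_comm]
    exact Submodule.smul_mem _ t hx

/-- The map with the `p`-th powers of the entries. -/
noncomputable def frobMap (p : ℕ) (φ : (Fin m → K) →ₗ[K] (Fin r → K)) :
    (Fin m → K) →ₗ[K] (Fin r → K) :=
  Fintype.linearCombination K fun i => Colength.frobVec p (φ (Pi.single i 1))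

theorem frobMap_frobVec [Fact p.Prime] [CharP K p] (φ : (Fin m → K) →ₗ[K] (Fin r → K))
    (v : Fin m → K) : frobMap p φ (Colength.frobVec p v) = Colength.frobVec p (φ v) := by
  have hv : φ v = ∑ i, v i • φ (Pi.single i 1) := by
    simp_rw [← map_smul, ← map_sum]
    congr 1
    funext j
    simp [Finset.sum_apply, Pi.single_apply]
  rw [frobMap, Fintype.linearCombination_apply, hv]
  funext l
  simp [Colength.frobVec, Finset.sum_apply, sum_pow_char, mul_pow]

theorem tmap_frobMap [Fact p.Prime] [CharP K p] (φ : (Fin m → K) →ₗ[K] (Fin r → K))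
    (h : Fin r → K) :
    tmap (frobMap p φ) (Colength.frobVec p h) = Colength.frobVec p (tmap φ h) := by
  funext i
  simp [tmap, frobMap, Colength.frobVec, sum_pow_char, mul_pow]

theorem frobMap_injective [Fact p.Prime] [CharP K p] (φ : (Fin m → K) →ₗ[K] (Fin r → K))
    (hφ : Function.Injective φ) : Function.Injective (frobMap p φ) := by
  obtain ⟨ψ, hψ⟩ := φ.exists_leftInverse_of_injective (LinearMap.ker_eq_bot.mpr hφ)
  have hp : p ≠ 0 := (Fact.out : p.Prime).ne_zero
  have h : (frobMap p ψ).comp (frobMap p φ) = LinearMap.id := by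
    refine (Pi.basisFun K (Fin m)).ext fun i => ?_
    have hs : (Pi.single i 1 : Fin m → K) = Colength.frobVec p (Pi.single i 1) := by
      funext j
      rcases eq_or_ne j i with rfl | hj <;> simp [Colength.frobVec, *]
    rw [Pi.basisFun_apply, LinearMap.comp_apply, LinearMap.id_apply, hs, frobMap_frobVec,
      frobMap_frobVec, show ψ (φ (Pi.single i 1)) = Pi.single i 1 from LinearMap.congr_fun hψ _]
  exact Function.LeftInverse.injective (g := frobMap p ψ) fun x => LinearMap.congr_fun h x

/-- Descent of a subspace spanned by vectors with `p`-th power coordinates. -/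
theorem exists_descended [Fact p.Prime] [CharP K p] {U : Submodule K (Fin r → K)}
    (hU : U = span K {u | u ∈ U ∧ ∃ v : Fin r → K, u = Colength.frobVec p v}) :
    ∃ (φ : (Fin (finrank K U) → K) →ₗ[K] (Fin r → K)),
      Function.Injective φ ∧ LinearMap.range (frobMap p φ) = U := by
  let U₀ : Submodule K (Fin r → K) :=
    { carrier := {v | Colength.frobVec p v ∈ U}
      add_mem' := fun {x y} hx hy => by
        show Colength.frobVec p (x + y) ∈ U
        rw [Colength.frobVec_add]; exact add_mem hx hy
      zero_mem' := by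
        show Colength.frobVec p (0 : Fin r → K) ∈ U
        rw [show Colength.frobVec p (0 : Fin r → K) = 0 from
          funext fun i => zero_pow (Fact.out : p.Prime).ne_zero]
        exact zero_mem _
      smul_mem' := fun c x hx => by
        show Colength.frobVec p (c • x) ∈ U
        rw [Colength.frobVec_smul]; exact U.smul_mem _ hx }
  have hrange : LinearMap.range (frobMap p (basisMap U₀)) = U := by
    apply le_antisymm
    · rintro _ ⟨u, rfl⟩
      rw [frobMap, Fintype.linearCombination_apply]
      refine sum_mem fun i _ => U.smul_mem _ ?_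
      exact (range_basisMap U₀).le (LinearMap.mem_range_self (basisMap U₀) _)
    · conv_lhs => rw [hU]
      rw [span_le]
      rintro _ ⟨hu, v, rfl⟩
      obtain ⟨y, hy⟩ := (range_basisMap U₀).ge (show v ∈ U₀ from hu)
      exact ⟨Colength.frobVec p y, by rw [frobMap_frobVec, hy]⟩
  have hinj := frobMap_injective (p := p) _ (basisMap_injective U₀)
  have hdim : finrank K U = finrank K U₀ := by
    conv_lhs => rw [← hrange]
    rw [LinearMap.finrank_range_of_inj hinj, finrank_fin_fun]
  rw [hdim]
  exact ⟨basisMap U₀, basisMap_injective U₀, hrange⟩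

variable [IsAlgClosed k] [Fact p.Prime] [CharP k p]

theorem bet_descended (hS : C.Smooth) (hω : OmegaData C a w) (hpair : PairProp C)
    (hN : C.IsMod N) (hG : C.IsMod (colon C (colon C (Colength.frobFam C p N)))) {β γ : ℚ}
    (hq : Quad a N (((C.d * r : ℕ) : ℚ) / 2) β γ) (φ : (Fin m → K) →ₗ[K] (Fin r → K))
    (hφ : Function.Injective φ) :
    bet C a (colon C (colon C (Colength.frobFam C p N))) (LinearMap.range (frobMap p φ))
      ≤ (p : ℚ) * bet C a N (LinearMap.range φ) := by
  classical
  have : CharP K p := charP_of_injective_algebraMap (algebraMap k K).injective p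
  have := finiteDimensional_ratField C
  have := C.sep
  obtain ⟨c₀, hqR⟩ := exists_quad_one1 hS hω
  have hNs := hN.smul_mem
  have hNF := fam_of_isMod hN
  have hM := isMod_colon hω hNs hNF
  have hMF := fam_of_isMod hM
  -- the image of the colon
  set Q := fun j => (colon C N j).map ((tmap φ).restrictScalars k) with hQ
  set M₀ := colon C (coordPart φ N) with hM₀
  have eQ : colon C Q = coordPart φ N := funext fun n => by
    rw [colon_map_tmap]
    exact congrArg (Submodule.comap (φ.restrictScalars k)) (colon_colon_of_isMod hω hN n)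
  have hP : Fam C.η C.ζ (coordPart φ N) := coordPart_fam C.indep φ hφ hNF
  have hPs := stable_coordPart φ hNs
  have hPr : ∀ n, colon C (colon C (coordPart φ N)) n = coordPart φ N n := by
    intro n; rw [← eQ]; exact colon_colon_colon n
  have hQM : ∀ n, Q n ≤ M₀ n := fun n => by
    rw [hM₀, ← eQ]; exact le_colon_colon n
  have hM₀m : C.IsMod M₀ := isMod_colon hω hPs hP
  obtain ⟨β₁, γ₁, hq₁, hq₁'⟩ := quad_colon hω hPs hP hPr
  have hm : finrank K (LinearMap.range φ) = m := by
    rw [LinearMap.finrank_range_of_inj hφ, finrank_fin_fun]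
  have hb₁ : bet C a N (LinearMap.range φ) = β₁ := bet_eq (γ := γ₁) (by
    rw [lead, hm]
    exact quad_congr (fun n => finrank_coordPart φ hφ n) hq₁)
  -- the image has the same linear coefficient
  obtain ⟨βN, γN, hqN, hqN'⟩ := quad_colon hω hNs hNF (colon_colon_of_isMod hω hN)
  obtain rfl : βN = β := (Bound.Slopes.quad_unique hqN hq).1
  obtain ⟨γQ, hqQ⟩ := quad_map hMF (tmap φ) (tmap_surjective φ hφ) hqN'
  set W := LinearMap.ker (tmap φ) with hW
  have hker : LinearMap.ker (tmap (basisMap W)) = LinearMap.range φ := by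
    symm
    refine Submodule.eq_of_le_of_finrank_eq ?_ ?_
    · rintro _ ⟨u, rfl⟩
      rw [LinearMap.mem_ker]
      funext i
      have h0 : tmap φ (basisMap W (Pi.single i 1)) = 0 :=
        LinearMap.mem_ker.mp ((range_basisMap W).le (LinearMap.mem_range_self _ _))
      have h1 := sum_tmap φ (basisMap W (Pi.single i 1)) u
      rw [h0] at h1
      simp only [tmap, LinearMap.coe_mk, AddHom.coe_mk, Pi.zero_apply]
      rw [show ∑ l, φ u l * basisMap W (Pi.single i 1) l = ∑ l, basisMap W (Pi.single i 1) l * φ u l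
        from Finset.sum_congr rfl fun l _ => mul_comm _ _, ← h1]
      simp
    · have h1 := finrank_ker_tmap φ hφ
      have h2 := finrank_ker_tmap (basisMap W) (basisMap_injective W)
      rw [← hW] at h1
      omega
  have hle₁ := bet_colon_le hω hNs hNF hq (basisMap W) (basisMap_injective W)
  rw [range_basisMap, hker, hb₁] at hle₁
  have hle₂ : -βN - bet C a (colon C N) W ≤ -β₁ := beta_le 0 hqQ hq₁' (Eventually.of_forall fun n => by
    have := hM₀m.fd n
    exact Submodule.finrank_mono (hQM n))
  have hqQ' : Quad a Q (((C.d * m : ℕ) : ℚ) / 2) (-β₁) γQ := by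
    have e : -βN - bet C a (colon C N) W = -β₁ := by linarith
    rwa [e] at hqQ
  -- a constant colength
  obtain ⟨n₁, hn₁⟩ := eventually_atTop.1 (hq₁'.and hqQ')
  have := hM₀m.fd n₁
  obtain ⟨l, hl⟩ := Nat.exists_eq_add_of_le (Submodule.finrank_mono (hQM n₁))
  have hev : ∀ᶠ n : ℤ in atTop, finrank k (M₀ n) = finrank k (Q n) + l :=
    eventually_atTop.2 ⟨n₁, fun n hn => by
      have h0 := hn₁ n₁ le_rfl
      have h1 := hn₁ n hn
      have hl' : (finrank k (M₀ n₁) : ℚ) = finrank k (Q n₁) + l := by exact_mod_cast hl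
      have : (finrank k (M₀ n) : ℚ) = finrank k (Q n) + l := by
        linarith [h0.1, h0.2, h1.1, h1.2]
      exact_mod_cast this⟩
  have hcol := Colength.frobFam_colength (p := p) (C := C) hS.2 hM₀m.smul_mem
    (stable_map (tmap φ) hM.smul_mem) hQM hM₀m.fd hM₀m.below
    (hM₀m.gen.imp fun b hb n hn => (hb n hn).le) l hev
  obtain ⟨hG₀, γ₀, hq₀, -⟩ := hull_quad (p := p) hS hω hpair hM₀m hq₁' hqR
  set F₀ := Colength.frobFam C p M₀ with hF₀
  have hfd₀ : ∀ n, FiniteDimensional k (F₀ n) := fun n => by
    have := hG₀.fd n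
    exact Submodule.finiteDimensional_of_le (le_colon_colon (C := C) (N := F₀) n)
  have hcof : ∀ n, colon C (Colength.frobFam C p Q) n = colon C F₀ n := fun n =>
    colon_eq_of_cofinite hS.1 Colength.frobFam_stable hfd₀ (Colength.frobFam_mono hQM)
      (l := p ^ 2 * l) hcol n
  -- the part pairs with the image
  set G := colon C (colon C (Colength.frobFam C p N))
  have hGF := fam_of_isMod hG
  set φp := frobMap p φ with hφp
  have hle₃ : ∀ n, coordPart φp G n ≤ colon C (Colength.frobFam C p Q) n := by
    intro n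
    rw [← colon_map_tmap]
    refine colon_anti (fun j => ?_) n
    show Submodule.span k _ ≤ _
    rw [Submodule.span_le]
    rintro _ ⟨i, b, hb, _, ⟨h, hh, rfl⟩, rfl⟩
    refine ⟨b • Colength.frobVec p h, frobFam_colon_le (N := N) j (Colength.mem_frobFam hb hh), ?_⟩
    show tmap φp (b • Colength.frobVec p h) = b • Colength.frobVec p (tmap φ h)
    rw [map_smul, hφp, tmap_frobMap]
  have hφi : Function.Injective φp := frobMap_injective φ hφ
  obtain ⟨β₃, γ₃, hq₃⟩ := exists_quad_fam (a := a) (coordPart_fam C.indep φp hφi hGF)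
  have hmp : finrank K (LinearMap.range φp) = m := by
    rw [LinearMap.finrank_range_of_inj hφi, finrank_fin_fun]
  have hb₃ : bet C a G (LinearMap.range φp) = β₃ := bet_eq (γ := γ₃) (by
    rw [lead, hmp]
    exact quad_congr (fun n => finrank_coordPart φp hφi n) hq₃)
  obtain ⟨β₄, γ₄, hq₄, hq₄'⟩ := quad_colon hω hG₀.smul_mem (fam_of_isMod hG₀)
    (colon_colon_of_isMod hω hG₀)
  obtain rfl : β₄ = (p : ℚ) * (-β₁) := (Bound.Slopes.quad_unique hq₄ hq₀).1
  rw [show colon C (colon C (colon C F₀)) = colon C F₀ from funext colon_colon_colon] at hq₄'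
  rw [hb₁, hb₃, show (p : ℚ) * β₁ = -((p : ℚ) * -β₁) by ring]
  refine beta_le 0 hq₃ hq₄' (Eventually.of_forall fun n => ?_)
  have hfd' : FiniteDimensional k (colon C (colon C (colon C F₀)) n) :=
    (isMod_colon hω hG₀.smul_mem (fam_of_isMod hG₀)).fd n
  rw [colon_colon_colon] at hfd'
  exact Submodule.finrank_mono ((hle₃ n).trans (hcof n).le)

end Vale.Agent.P190.Bound.Slopes
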