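import Vale.Agent.P190.Bound.DerivMult
import Vale.Agent.P190.Bound.Descent
import Vale.Agent.P190.Bound.Slopes.Frob

/-!
The slope bounds for the Frobenius hull of a module with a window, and for its colon.
-/

open Submodule Module Filter

namespace Vale.Agent.P190.Bound.Slopes

open Vale.Agent.P190 Hilb

variable {k K : Type} [Field k] [Field K] [Algebra k K] {C : Cone k K} {r : ℕ} {a : ℤ} {w : K}
  {N L : ℤ → Submodule k (Fin r → K)} {p : ℕ}

/-- Repeated enlargement reaches a stable subspace. -/
theorem exists_stable (hL : Fam C.η C.ζ L) (D : Fin 2 → Derivation k K K) {c : K} (hc : c ≠ 0)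
    {e : ℕ} (hP : ∀ j, Preserves (D j) c e L) :
    ∀ (i : ℕ) (U : Submodule K (Fin r → K)) (t : ℚ), r ≤ finrank K U + i → U ≠ ⊥ →
      Steep C a L t U →
      ∃ U', U' ≠ ⊥ ∧ (∀ j, enlarge (D j) U' = U') ∧ Steep C a L (t - (i : ℚ) * e) U' := by
  intro i
  induction i with
  | zero =>
    intro U t hi hU hs
    refine ⟨U, hU, fun j => ?_, by simpa using hs⟩
    have htop : U = ⊤ := Submodule.eq_top_of_finrank_eq (by
      have := Submodule.finrank_le U
      rw [finrank_fin_fun] at this ⊢
      omega)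
    subst htop
    exact eq_top_iff.mpr (le_enlarge _ _)
  | succ i ih =>
    intro U t hi hU hs
    have he : (0 : ℚ) ≤ e := Nat.cast_nonneg _
    by_cases hst : ∀ j, enlarge (D j) U = U
    · refine ⟨U, hU, hst, fun W hW => ?_⟩
      have h1 := hs W hW
      have h2 : (finrank K W : ℚ) ≤ finrank K U := by exact_mod_cast Submodule.finrank_mono hW.le
      have h3 : (0 : ℚ) ≤ (C.d : ℚ) * ((finrank K U : ℚ) - finrank K W) :=
        mul_nonneg (Nat.cast_nonneg _) (by linarith)
      have h4 := mul_nonneg (mul_nonneg (Nat.cast_nonneg (i + 1) : (0 : ℚ) ≤ ((i + 1 : ℕ) : ℚ)) he) h3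
      nlinarith
    · push Not at hst
      obtain ⟨j, hj⟩ := hst
      have hlt : U < enlarge (D j) U := lt_of_le_of_ne (le_enlarge _ _) (Ne.symm hj)
      have := Submodule.finrank_lt_finrank_of_lt hlt
      obtain ⟨U', h1, h2, h3⟩ := ih (enlarge (D j) U) (t - e) (by omega)
        (ne_bot_of_le_ne_bot hU hlt.le) (steep_enlarge (D j) hL hc (hP j) hs)
      refine ⟨U', h1, h2, ?_⟩
      convert h3 using 1
      push_cast
      ring

/-- A subspace of least dimension violating a bound is steep. -/
theorem exists_steep (T : ℚ) {V : Submodule K (Fin r → K)}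
    (hV : T * ((C.d : ℚ) * finrank K V) < bet C a L V) :
    ∃ U, U ≠ ⊥ ∧ Steep C a L T U := by
  classical
  let S := {i : ℕ | ∃ U : Submodule K (Fin r → K),
    finrank K U = i ∧ T * ((C.d : ℚ) * finrank K U) < bet C a L U}
  obtain ⟨U, hUi, hU⟩ : ∃ U : Submodule K (Fin r → K), finrank K U = sInf S ∧
      T * ((C.d : ℚ) * finrank K U) < bet C a L U :=
    Nat.sInf_mem (s := S) ⟨_, V, rfl, hV⟩
  refine ⟨U, fun h => ?_, fun W hW => ?_⟩
  · subst h
    simp [bet_bot] at hU
  · have hlt := Submodule.finrank_lt_finrank_of_lt hW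
    have hW' : bet C a L W ≤ T * ((C.d : ℚ) * finrank K W) := by
      by_contra hcon
      push Not at hcon
      have : sInf S ≤ finrank K W := Nat.sInf_le ⟨W, rfl, hcon⟩
      omega
    linarith

variable [IsAlgClosed k] [Fact p.Prime] [CharP k p]

/-- The slope bound for the Frobenius hull. -/
theorem bet_hull_le (hS : C.Smooth) (hω : OmegaData C a w) (hpair : PairProp C) (hN : C.IsMod N)
    (s : ℚ) (hwin : ∀ U : Submodule K (Fin r → K), U ≠ ⊥ →
      bet C a N U ≤ (C.d : ℚ) * finrank K U * (s + 1 / 2))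
    (V : Submodule K (Fin r → K)) :
    bet C a (colon C (colon C (Colength.frobFam C p N))) V
      ≤ (C.d : ℚ) * finrank K V * ((p : ℚ) * (s + 1 / 2) + r * Cone.multDeg C.d C.g) := by
  classical
  have : CharP K p := charP_of_injective_algebraMap (algebraMap k K).injective p
  have := finiteDimensional_ratField C
  have := C.sep
  obtain ⟨c₀, hqR⟩ := exists_quad_one1 hS hω
  obtain ⟨β, γ, hq, -⟩ := quad_colon hω hN.smul_mem (fam_of_isMod hN) (colon_colon_of_isMod hω hN)
  obtain ⟨hG, -⟩ := hull_quad (p := p) hS hω hpair hN hq hqR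
  obtain ⟨D, hD⟩ := exists_derivations C.indep
  obtain ⟨c, hc, -, hcD⟩ := Cone.exists_multiplier C hD
  set e := Cone.multDeg C.d C.g
  set G := colon C (colon C (Colength.frobFam C p N))
  have hP : ∀ j, Preserves (D j) c e G := fun j =>
    preserves_colon (D j) (hcD j) (preserves_colon (D j) (hcD j) (preserves_frobFam (D j) (hcD j)))
  by_contra hcon
  push Not at hcon
  obtain ⟨U₁, hU₁, hs₁⟩ := exists_steep (C := C) (a := a) (L := G)
    ((p : ℚ) * (s + 1 / 2) + r * e) (V := V) (by linarith)
  obtain ⟨U, hU, hst, hsteep⟩ := exists_stable (fam_of_isMod hG) D hc hP r U₁ _ (by omega) hU₁ hs₁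
  have hlow := hsteep ⊥ (bot_lt_iff_ne_bot.mpr hU)
  rw [bet_bot, finrank_bot] at hlow
  have hdesc := span_pow_of_stable D p
    (fun x hx => exists_root_of_deriv_eq_zero p C.indep hD hx) U (fun j u hu => by
      have := dvec_mem_enlarge (D j) hu
      rw [hst j] at this
      exact this)
  obtain ⟨φ, hφ, hφU⟩ := exists_descended (p := p) hdesc
  have hup := bet_descended hS hω hpair hN hG hq φ hφ
  rw [hφU] at hup
  have hdim : finrank K (LinearMap.range φ) = finrank K U := by
    rw [LinearMap.finrank_range_of_inj hφ, finrank_fin_fun]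
  have hne : LinearMap.range φ ≠ ⊥ := fun h => by
    rw [h, finrank_bot] at hdim
    exact hU (Submodule.finrank_eq_zero.mp hdim.symm)
  have hw := mul_le_mul_of_nonneg_left (hwin _ hne) (Nat.cast_nonneg p : (0 : ℚ) ≤ p)
  rw [hdim] at hw
  push_cast at hlow
  linarith

/-- The colon of the hull of a Frobenius image is the hull of the image of the colon. -/
theorem colon_hull_eq (hS : C.Smooth) (hω : OmegaData C a w) (hpair : PairProp C)
    (hN : C.IsMod N) :
    colon C (colon C (colon C (Colength.frobFam C p N))) =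
      colon C (colon C (Colength.frobFam C p (colon C N))) := by
  have : CharP K p := charP_of_injective_algebraMap (algebraMap k K).injective p
  obtain ⟨c₀, hqR⟩ := exists_quad_one1 hS hω
  obtain ⟨β, γ, hq, hq'⟩ :=
    quad_colon hω hN.smul_mem (fam_of_isMod hN) (colon_colon_of_isMod hω hN)
  obtain ⟨hG, γ₁, hq₁, -⟩ := hull_quad (p := p) hS hω hpair hN hq hqR
  have hM := isMod_colon hω hN.smul_mem (fam_of_isMod hN)
  obtain ⟨hG', γ₂, hq₂, -⟩ := hull_quad (p := p) hS hω hpair hM hq' hqR
  set H := colon C (colon C (colon C (Colength.frobFam C p N)))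
  set G' := colon C (colon C (Colength.frobFam C p (colon C N)))
  have hH : C.IsMod H := isMod_colon hω hG.smul_mem (fam_of_isMod hG)
  obtain ⟨β₃, γ₃, h₃, h₃'⟩ := quad_colon hω hG.smul_mem (fam_of_isMod hG)
    (colon_colon_of_isMod hω hG)
  obtain rfl : β₃ = (p : ℚ) * β := (Bound.Slopes.quad_unique h₃ hq₁).1
  have hle : ∀ n, G' n ≤ H n := fun n => by
    have h1 : ∀ j, Colength.frobFam C p (colon C N) j ≤ H j := fun j =>
      (frobFam_colon_le (N := N) j).trans (colon_colon_colon j).ge
    refine (colon_anti (fun j => colon_anti h1 j) n).trans ?_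
    exact (colon_colon_of_isMod hω hH n).le
  obtain ⟨n₁, hn₁⟩ := eventually_atTop.1 (h₃'.and hq₂)
  have := hH.fd n₁
  obtain ⟨l, hl⟩ := Nat.exists_eq_add_of_le (Submodule.finrank_mono (hle n₁))
  have hev : ∀ᶠ n : ℤ in atTop, finrank k (H n) ≤ finrank k (G' n) + l :=
    eventually_atTop.2 ⟨n₁, fun n hn => by
      have h0 := hn₁ n₁ le_rfl
      have h1 := hn₁ n hn
      have hl' : (finrank k (H n₁) : ℚ) = finrank k (G' n₁) + l := by exact_mod_cast hl
      have : (finrank k (H n) : ℚ) = finrank k (G' n) + l := by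
        rw [h0.1, h0.2] at hl'
        rw [h1.1, h1.2]
        linarith
      exact_mod_cast this.le⟩
  funext n
  rw [← colon_colon_of_isMod hω hH n, ← colon_colon_of_isMod hω hG' n]
  exact congrArg (fun L => colon C L n)
    (funext fun j => (colon_eq_of_cofinite hS.1 hH.smul_mem hH.fd hle hev j).symm)

omit [IsAlgClosed k] [Fact p.Prime] [CharP k p] in
/-- A window bounds the parts of the module and of its colon. -/
theorem window_bet (hω : OmegaData C a w) (hN : C.IsMod N) (hW : C.Window N) {β γ : ℚ}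
    (hq : Quad a N (((C.d * r : ℕ) : ℚ) / 2) β γ) (U : Submodule K (Fin r → K)) :
    (U ≠ ⊥ → bet C a N U ≤ (C.d : ℚ) * finrank K U * (β / (C.d * r : ℕ) + 1 / 2)) ∧
    (U ≠ ⊥ → bet C a (colon C N) U
      ≤ (C.d : ℚ) * finrank K U * (-β / (C.d * r : ℕ) + 1 / 2)) := by
  obtain ⟨e, c, hP, -, hwin⟩ := hW
  have hNF := fam_of_isMod hN
  have hβ := (Bound.Slopes.quad_unique hq (quad_of_hasPoly hP)).1
  have hd : (0 : ℚ) < C.d := by exact_mod_cast C.d_pos
  have hd' : (0 : ℚ) ≤ C.d := hd.le
  have part : ∀ V : Submodule K (Fin r → K), V ≠ ⊥ → V ≠ ⊤ →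
      bet C a N V ≤ β / r * finrank K V
        + min ((C.d : ℚ) * finrank K V) (C.d * ((r : ℚ) - finrank K V)) / 2 := by
    intro V h1 h2
    obtain ⟨γV, hV⟩ := quad_part (a := a) hNF V
    set D : ℚ := ((C.d * finrank K V : ℕ) : ℚ) with hD
    have hr : (r : ℚ) ≠ 0 := Nat.cast_ne_zero.2 (by
      intro h0
      subst h0
      exact h1 (Subsingleton.elim _ _))
    have := hwin V h1 h2 (bet C a N V - D * a / 2 - 3 * D / 2)
      (γV - D * (((a : ℚ) / 2 + 2) * ((a : ℚ) / 2 + 1)) / 2
        - (bet C a N V - D * a / 2 - 3 * D / 2) * ((a : ℚ) / 2 + 1))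
      (hV.mono fun n hn => by rw [hn, lead, ← hD]; ring)
    rw [hβ]
    simp only [hD, Nat.cast_mul] at this ⊢
    field_simp at this ⊢
    linarith
  constructor
  · intro hU
    have hr : (0 : ℚ) < r := by
      have : 0 < finrank K U := Nat.pos_of_ne_zero fun h => hU (Submodule.finrank_eq_zero.mp h)
      have := Submodule.finrank_le U
      rw [finrank_fin_fun] at this
      exact_mod_cast (by omega : 0 < r)
    have e : (C.d : ℚ) * finrank K U * (β / (C.d * r : ℕ) + 1 / 2)
        = β / r * finrank K U + (C.d : ℚ) * finrank K U / 2 := by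
      push_cast
      field_simp
    rw [e]
    rcases eq_or_ne U ⊤ with rfl | hUT
    · rw [bet_top hq, finrank_top, finrank_fin_fun, div_mul_cancel₀ β hr.ne']
      have : 0 ≤ (C.d : ℚ) * r := mul_nonneg hd' hr.le
      linarith
    · have := part U hU hUT
      have := min_le_left ((C.d : ℚ) * finrank K U) (C.d * ((r : ℚ) - finrank K U))
      linarith
  · intro hU
    have hpos : 0 < finrank K U := Nat.pos_of_ne_zero fun h => hU (Submodule.finrank_eq_zero.mp h)
    have hur := Submodule.finrank_le U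
    rw [finrank_fin_fun] at hur
    have hr : (0 : ℚ) < r := by exact_mod_cast (by omega : 0 < r)
    have h := bet_colon_le hω hN.smul_mem hNF hq (basisMap U) (basisMap_injective U)
    rw [range_basisMap] at h
    have hdim := finrank_ker_tmap (basisMap U) (basisMap_injective U)
    set V := LinearMap.ker (tmap (basisMap U))
    have hdim' : (finrank K V : ℚ) = r - finrank K U := by
      have : (finrank K U : ℚ) + finrank K V = r := by exact_mod_cast hdim
      linarith
    have e : (C.d : ℚ) * finrank K U * (-β / (C.d * r : ℕ) + 1 / 2)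
        = -β + β / r * ((r : ℚ) - finrank K U) + (C.d : ℚ) * finrank K U / 2 := by
      push_cast
      field_simp
      ring
    rw [e]
    have hV : bet C a N V ≤ β / r * finrank K V + (C.d : ℚ) * finrank K U / 2 := by
      rcases eq_or_ne V ⊥ with hb | hb
      · rw [hb, bet_bot, finrank_bot]
        simp only [Nat.cast_zero, mul_zero, zero_add]
        positivity
      · have hVT : V ≠ ⊤ := fun h => by
          rw [h, finrank_top, finrank_fin_fun] at hdim
          omega
        have := part V hb hVT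
        have := min_le_right ((C.d : ℚ) * finrank K V) (C.d * ((r : ℚ) - finrank K V))
        have e2 : (C.d : ℚ) * ((r : ℚ) - finrank K V) = C.d * finrank K U := by rw [hdim']; ring
        linarith [le_trans (min_le_right ((C.d : ℚ) * finrank K V)
          (C.d * ((r : ℚ) - finrank K V))) e2.le]
    rw [hdim'] at hV
    linarith

/-- The two slope bounds, in the shape used for the bounds on sections. -/
theorem slope_bounds (hS : C.Smooth) (hω : OmegaData C a w) (hpair : PairProp C) (hN : C.IsMod N)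
    (hW : C.Window N) {β γ : ℚ} (hq : Quad a N (((C.d * r : ℕ) : ℚ) / 2) β γ) :
    (∀ V : Submodule K (Fin r → K), V ≠ ⊥ → ∀ β' γ' : ℚ,
      Quad a (Cone.part (colon C (colon C (Colength.frobFam C p N))) V)
        (((C.d * finrank K V : ℕ) : ℚ) / 2) β' γ' →
      β' ≤ ((C.d * finrank K V : ℕ) : ℚ)
        * ((p : ℚ) * (β / (C.d * r : ℕ) + 1 / 2) + r * Cone.multDeg C.d C.g)) ∧
    (∀ V : Submodule K (Fin r → K), V ≠ ⊥ → ∀ β' γ' : ℚ,
      Quad a (Cone.part (colon C (colon C (colon C (Colength.frobFam C p N)))) V)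
        (((C.d * finrank K V : ℕ) : ℚ) / 2) β' γ' →
      β' ≤ ((C.d * finrank K V : ℕ) : ℚ)
        * ((p : ℚ) * (-β / (C.d * r : ℕ) + 1 / 2) + r * Cone.multDeg C.d C.g)) := by
  refine ⟨fun V _ β' γ' h => ?_, fun V _ β' γ' h => ?_⟩
  · rw [← bet_eq h, Nat.cast_mul (α := ℚ) C.d (finrank K V)]
    exact bet_hull_le hS hω hpair hN _ (fun U => (window_bet hω hN hW hq U).1) V
  · rw [colon_hull_eq hS hω hpair hN] at h
    rw [← bet_eq h, Nat.cast_mul (α := ℚ) C.d (finrank K V)]
    exact bet_hull_le hS hω hpair (isMod_colon hω hN.smul_mem (fam_of_isMod hN)) _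
      (fun U => (window_bet hω hN hW hq U).2) V

end Vale.Agent.P190.Bound.Slopes
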