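import Vale.Agent.P190.Bound.Colon
import Vale.Agent.P190.Hilb.Bridge

/-!
The centred linear coefficient of the parts of a family in the subspaces.
-/

open Submodule Module Filter

namespace Vale.Agent.P190.Bound.Slopes

open Vale.Agent.P190 Hilb

variable {k K : Type} [Field k] [Field K] [Algebra k K] {C : Cone k K} {r : ℕ} {a : ℤ}
  {L L' : ℤ → Submodule k (Fin r → K)}

/-- An eventual inequality of affine functions compares the linear coefficients. -/
theorem affine_le {A B A' B' : ℚ}
    (h : ∀ᶠ n : ℤ in atTop,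
      A * ((n : ℚ) - (a : ℚ) / 2) + B ≤ A' * ((n : ℚ) - (a : ℚ) / 2) + B') : A ≤ A' :=
  lin_le (b := B - A * ((a : ℚ) / 2)) (b' := B' - A' * ((a : ℚ) / 2))
    (h.mono fun n hn => by linarith)

/-- The coefficients of a quadratic are unique. -/
theorem quad_unique {W : Type} [AddCommGroup W] [Module k W] {M : ℤ → Submodule k W}
    {α β γ β' γ' : ℚ} (h : Quad a M α β γ) (h' : Quad a M α β' γ') : β = β' ∧ γ = γ' := by
  have hb : β = β' := le_antisymm
    (affine_le (a := a) (B := γ) (B' := γ') ((h.and h').mono fun n hn => by linarith [hn.1, hn.2]))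
    (affine_le (a := a) (B := γ') (B' := γ) ((h.and h').mono fun n hn => by linarith [hn.1, hn.2]))
  obtain ⟨n, hn, hn'⟩ := (h.and h').exists
  subst hb
  exact ⟨rfl, by linarith⟩

/-- A family at most a constant below another has at most its linear coefficient. -/
theorem beta_le {W W' : Type} [AddCommGroup W] [Module k W] [AddCommGroup W'] [Module k W']
    {M : ℤ → Submodule k W} {M' : ℤ → Submodule k W'} {α β γ β' γ' : ℚ} (l : ℕ)
    (h : Quad a M α β γ) (h' : Quad a M' α β' γ')
    (hle : ∀ᶠ n : ℤ in atTop, finrank k (M n) ≤ finrank k (M' n) + l) : β ≤ β' :=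
  affine_le (a := a) (B := γ) (B' := γ' + l) (((h.and h').and hle).mono fun n hn => by
    obtain ⟨⟨h1, h2⟩, h3⟩ := hn
    have : (finrank k (M n) : ℚ) ≤ finrank k (M' n) + l := by exact_mod_cast h3
    linarith)

/-- Equal dimensions give equal quadratics. -/
theorem quad_congr {W W' : Type} [AddCommGroup W] [Module k W] [AddCommGroup W'] [Module k W']
    {M : ℤ → Submodule k W} {M' : ℤ → Submodule k W'} {α β γ : ℚ}
    (h : ∀ n, finrank k (M n) = finrank k (M' n)) (hq : Quad a M α β γ) : Quad a M' α β γ :=
  hq.mono fun n hn => by rw [← h]; exact hn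

/-- The leading coefficient of the part in a subspace. -/
noncomputable def lead (C : Cone k K) (V : Submodule K (Fin r → K)) : ℚ :=
  ((C.d * finrank K V : ℕ) : ℚ) / 2

/-- The centred linear coefficient of the part in a subspace. -/
noncomputable def bet (C : Cone k K) (a : ℤ) (L : ℤ → Submodule k (Fin r → K))
    (V : Submodule K (Fin r → K)) : ℚ :=
  Classical.epsilon fun β => ∃ γ, Quad a (Cone.part L V) (lead C V) β γ

theorem bet_eq {V : Submodule K (Fin r → K)} {β γ : ℚ}
    (h : Quad a (Cone.part L V) (lead C V) β γ) : bet C a L V = β := by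
  obtain ⟨γ', h'⟩ :=
    Classical.epsilon_spec (p := fun β => ∃ γ, Quad a (Cone.part L V) (lead C V) β γ) ⟨β, γ, h⟩
  exact (quad_unique h' h).1

/-- Coordinates of a subspace. -/
noncomputable def basisMap (V : Submodule K (Fin r → K)) :
    (Fin (finrank K V) → K) →ₗ[K] (Fin r → K) :=
  V.subtype ∘ₗ (Module.finBasis K V).equivFun.symm.toLinearMap

theorem basisMap_injective (V : Submodule K (Fin r → K)) : Function.Injective (basisMap V) :=
  V.injective_subtype.comp (Module.finBasis K V).equivFun.symm.injective

theorem range_basisMap (V : Submodule K (Fin r → K)) : LinearMap.range (basisMap V) = V := by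
  rw [basisMap, LinearMap.range_comp, LinearEquiv.range, Submodule.map_top, range_subtype]

theorem finrank_coordPart {m : ℕ} (φ : (Fin m → K) →ₗ[K] (Fin r → K))
    (hφ : Function.Injective φ) (n : ℤ) :
    finrank k (coordPart φ L n) = finrank k (Cone.part L (LinearMap.range φ) n) := by
  rw [(Submodule.equivMapOfInjective (φ.restrictScalars k) hφ _).finrank_eq, coordPart,
    Submodule.map_comap_eq, Cone.part, inf_comm, LinearMap.range_restrictScalars]

theorem part_le (V : Submodule K (Fin r → K)) (n : ℤ) : Cone.part L V n ≤ L n := inf_le_left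

theorem fd_part (hfd : ∀ n, FiniteDimensional k (L n)) (V : Submodule K (Fin r → K)) (n : ℤ) :
    FiniteDimensional k (Cone.part L V n) :=
  have := hfd n
  Submodule.finiteDimensional_of_le (part_le V n)

theorem quad_part (hL : Fam C.η C.ζ L) (V : Submodule K (Fin r → K)) :
    ∃ γ, Quad a (Cone.part L V) (lead C V) (bet C a L V) γ := by
  have := finiteDimensional_ratField C
  have := C.sep
  obtain ⟨β, γ, h⟩ :=
    exists_quad_fam (a := a) (coordPart_fam C.indep _ (basisMap_injective V) hL)
  have h' : Quad a (Cone.part L V) (lead C V) β γ := quad_congr (fun n => by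
    rw [finrank_coordPart _ (basisMap_injective V), range_basisMap]) h
  exact ⟨γ, by rwa [bet_eq h']⟩

theorem part_top (n : ℤ) : Cone.part L ⊤ n = L n := by simp [Cone.part]

theorem part_bot (n : ℤ) : Cone.part L (⊥ : Submodule K (Fin r → K)) n = ⊥ := by simp [Cone.part]

theorem lead_top : lead C (⊤ : Submodule K (Fin r → K)) = ((C.d * r : ℕ) : ℚ) / 2 := by
  simp [lead]

theorem bet_top {β γ : ℚ} (h : Quad a L (((C.d * r : ℕ) : ℚ) / 2) β γ) :
    bet C a L ⊤ = β :=
  bet_eq (γ := γ) (by rw [lead_top]; exact quad_congr (fun n => by rw [part_top]) h)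

theorem bet_bot : bet C a L (⊥ : Submodule K (Fin r → K)) = 0 :=
  bet_eq (γ := 0) (Eventually.of_forall fun n => by rw [part_bot, finrank_bot]; simp [lead])

theorem bet_mono_family (hL : Fam C.η C.ζ L) (hL' : Fam C.η C.ζ L') (h : ∀ n, L n ≤ L' n)
    (V : Submodule K (Fin r → K)) : bet C a L V ≤ bet C a L' V := by
  obtain ⟨γ, hq⟩ := quad_part (a := a) hL V
  obtain ⟨γ', hq'⟩ := quad_part (a := a) hL' V
  refine beta_le 0 hq hq' (Eventually.of_forall fun n => ?_)
  have := fd_part hL'.fd V n
  exact Submodule.finrank_mono (inf_le_inf_right _ (h n))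

end Vale.Agent.P190.Bound.Slopes
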